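import Mathlib

namespace Vale.Agent.Results.P123.SingleRootPolynomials

open Finset

variable {E : Type*} [NormedAddCommGroup E] [InnerProductSpace ℂ E]


/-- homogeneous form of a bound on the numerical range -/
lemma numRadius_hom (T : E →L[ℂ] E) (w : ℝ)
    (hw : ∀ x : E, ‖x‖ = 1 → ‖inner ℂ x (T x)‖ ≤ w) (y : E) :
    ‖inner ℂ y (T y)‖ ≤ w * ‖y‖ ^ 2 := by
  by_cases hy : y = 0
  · subst hy; simp
  have hny : 0 < ‖y‖ := norm_pos_iff.mpr hy
  set x : E := ((‖y‖⁻¹ : ℝ) : ℂ) • y with hx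
  have hx1 : ‖x‖ = 1 := by
    rw [hx, norm_smul, Complex.norm_real, Real.norm_eq_abs, abs_of_pos (inv_pos.mpr hny)]
    field_simp
  have h1 := hw x hx1
  have h2 : inner ℂ x (T x) = ((‖y‖⁻¹ : ℝ) : ℂ) * ((‖y‖⁻¹ : ℝ) : ℂ) * inner ℂ y (T y) := by
    rw [hx, map_smul, inner_smul_left, inner_smul_right, Complex.conj_ofReal]; ring
  rw [h2, norm_mul, norm_mul, Complex.norm_real, Real.norm_eq_abs, abs_of_pos (inv_pos.mpr hny)] at h1
  have h3 : ‖inner ℂ y (T y)‖ = ‖y‖ ^ 2 * (‖y‖⁻¹ * ‖y‖⁻¹ * ‖inner ℂ y (T y)‖) := by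
    field_simp
  rw [h3]
  have : ‖y‖ ^ 2 * (‖y‖⁻¹ * ‖y‖⁻¹ * ‖inner ℂ y (T y)‖) ≤ ‖y‖ ^ 2 * w :=
    mul_le_mul_of_nonneg_left h1 (by positivity)
  linarith

/-- the operator norm is at most twice the numerical radius -/
lemma norm_le_two_numRadius [Nontrivial E] (T : E →L[ℂ] E) (w : ℝ)
    (hw : ∀ x : E, ‖x‖ = 1 → ‖inner ℂ x (T x)‖ ≤ w) : ‖T‖ ≤ 2 * w := by
  have hw0 : 0 ≤ w := by
    obtain ⟨z, hz⟩ := exists_ne (0 : E)
    have := numRadius_hom T w hw z
    have hnz : 0 < ‖z‖ ^ 2 := by positivity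
    by_contra hneg
    push Not at hneg
    have : w * ‖z‖ ^ 2 < 0 := mul_neg_of_neg_of_pos hneg hnz
    linarith [norm_nonneg (inner ℂ z (T z))]
  have hom := numRadius_hom T w hw
  have hom' : ∀ z : E, ‖inner ℂ (T z) z‖ ≤ w * ‖z‖ ^ 2 := by
    intro z; rw [norm_inner_symm]; exact hom z
  apply ContinuousLinearMap.opNorm_le_bound T (by linarith)
  intro y
  by_cases hTy : T y = 0
  · rw [hTy, norm_zero]; positivity
  have hy : y ≠ 0 := by
    rintro rfl; exact hTy (map_zero T)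
  have hny : 0 < ‖y‖ := norm_pos_iff.mpr hy
  have hnTy : 0 < ‖T y‖ := norm_pos_iff.mpr hTy
  set x : E := ((‖y‖ / ‖T y‖ : ℝ) : ℂ) • T y with hx
  have hxn : ‖x‖ = ‖y‖ := by
    rw [hx, norm_smul, Complex.norm_real, Real.norm_eq_abs, abs_of_pos (div_pos hny hnTy)]
    field_simp
  have hpol := inner_map_polarization' (T : E →ₗ[ℂ] E) y x
  simp only [ContinuousLinearMap.coe_coe] at hpol
  have hval : inner ℂ (T y) x = ((‖y‖ * ‖T y‖ : ℝ) : ℂ) := by
    have hself : inner ℂ (T y) (T y) = ((‖T y‖ ^ 2 : ℝ) : ℂ) := by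
      rw [inner_self_eq_norm_sq_to_K]; norm_cast
    rw [hx, inner_smul_right, hself]
    have : ((‖T y‖ : ℝ) : ℂ) ≠ 0 := by exact_mod_cast hnTy.ne'
    push_cast
    field_simp
  have hI : ‖Complex.I • x‖ = ‖x‖ := by rw [norm_smul, Complex.norm_I, one_mul]
  have hbound : ‖inner ℂ (T y) x‖ ≤ (w * ‖y + x‖ ^ 2 + w * ‖y - x‖ ^ 2
      + w * ‖y + Complex.I • x‖ ^ 2 + w * ‖y - Complex.I • x‖ ^ 2) / 4 := by
    rw [hpol, norm_div]
    have h4 : ‖(4:ℂ)‖ = 4 := by simp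
    rw [h4]
    apply div_le_div_of_nonneg_right _ (by norm_num)
    have t1 := hom' (y + x)
    have t2 := hom' (y - x)
    have t3 := hom' (y + Complex.I • x)
    have t4 := hom' (y - Complex.I • x)
    calc ‖inner ℂ (T (y + x)) (y + x) - inner ℂ (T (y - x)) (y - x)
          - Complex.I * inner ℂ (T (y + Complex.I • x)) (y + Complex.I • x)
          + Complex.I * inner ℂ (T (y - Complex.I • x)) (y - Complex.I • x)‖
        ≤ ‖inner ℂ (T (y + x)) (y + x)‖ + ‖inner ℂ (T (y - x)) (y - x)‖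
          + ‖Complex.I * inner ℂ (T (y + Complex.I • x)) (y + Complex.I • x)‖
          + ‖Complex.I * inner ℂ (T (y - Complex.I • x)) (y - Complex.I • x)‖ := by
          refine le_trans (norm_add_le _ _) ?_
          gcongr
          refine le_trans (norm_sub_le _ _) ?_
          gcongr
          exact norm_sub_le _ _
      _ ≤ _ := by
          rw [norm_mul, norm_mul, Complex.norm_I, one_mul, one_mul]
          linarith
  have hpar1 := parallelogram_law_with_norm ℂ y x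
  have hpar2 := parallelogram_law_with_norm ℂ y (Complex.I • x)
  rw [hI] at hpar2
  rw [hval, Complex.norm_real, Real.norm_eq_abs, abs_of_pos (mul_pos hny hnTy)] at hbound
  rw [hxn] at hpar1 hpar2
  have hsum : w * ‖y + x‖ ^ 2 + w * ‖y - x‖ ^ 2
      + w * ‖y + Complex.I • x‖ ^ 2 + w * ‖y - Complex.I • x‖ ^ 2 = 8 * w * ‖y‖ ^ 2 := by
    have e1 : ‖y + x‖ ^ 2 + ‖y - x‖ ^ 2 = 4 * ‖y‖ ^ 2 := by nlinarith
    have e2 : ‖y + Complex.I • x‖ ^ 2 + ‖y - Complex.I • x‖ ^ 2 = 4 * ‖y‖ ^ 2 := by nlinarith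
    calc w * ‖y + x‖ ^ 2 + w * ‖y - x‖ ^ 2
          + w * ‖y + Complex.I • x‖ ^ 2 + w * ‖y - Complex.I • x‖ ^ 2
        = w * (‖y + x‖ ^ 2 + ‖y - x‖ ^ 2) + w * (‖y + Complex.I • x‖ ^ 2 + ‖y - Complex.I • x‖ ^ 2) := by ring
      _ = 8 * w * ‖y‖ ^ 2 := by rw [e1, e2]; ring
  rw [hsum] at hbound
  have : ‖y‖ * ‖T y‖ ≤ ‖y‖ * (2 * w * ‖y‖) := by nlinarith
  exact le_of_mul_le_mul_left this hny




/-- Pearcy's argument for the power inequality, real-part form -/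
lemma berger_re (B : E →L[ℂ] E) (n : ℕ) (hn : 1 ≤ n)
    (hB : ∀ y : E, ‖inner ℂ y (B y)‖ ≤ ‖y‖ ^ 2) (x : E) :
    (inner ℂ x ((B ^ n) x)).re ≤ ‖x‖ ^ 2 := by
  have hn0 : n ≠ 0 := by omega
  set ω : ℂ := Complex.exp (2 * Real.pi * Complex.I / n) with hω
  have hprim : IsPrimitiveRoot ω n := Complex.isPrimitiveRoot_exp n hn0
  have hωn : ω ^ n = 1 := hprim.pow_eq_one
  set P : ℕ → (E →L[ℂ] E) := fun k => ∑ m ∈ range n, (ω ^ k • B) ^ m with hP
  -- (i)
  have h1 : ∀ k, (1 - ω ^ k • B) * P k = 1 - B ^ n := by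
    intro k
    rw [hP]
    simp only
    rw [mul_neg_geom_sum, smul_pow, ← pow_mul, mul_comm k n, pow_mul, hωn, one_pow, one_smul]
  -- (ii)
  have h2 : ∑ k ∈ range n, P k = (n : ℂ) • (1 : E →L[ℂ] E) := by
    rw [hP]
    simp only
    rw [Finset.sum_comm]
    have hterm : ∀ m ∈ range n, ∑ k ∈ range n, (ω ^ k • B) ^ m
        = (if m = 0 then (n : ℂ) else 0) • B ^ m := by
      intro m hm
      have e1 : ∑ k ∈ range n, (ω ^ k • B) ^ m = (∑ k ∈ range n, (ω ^ m) ^ k) • B ^ m := by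
        rw [Finset.sum_smul]
        apply Finset.sum_congr rfl
        intro k _
        rw [smul_pow, ← pow_mul, ← pow_mul, mul_comm]
      rw [e1]
      by_cases hm0 : m = 0
      · subst hm0; simp
      · rw [if_neg hm0]
        have hne : ω ^ m ≠ 1 :=
          hprim.pow_ne_one_of_pos_of_lt hm0 (mem_range.mp hm)
        rw [geom_sum_eq hne, ← pow_mul, mul_comm m n, pow_mul, hωn, one_pow, sub_self, zero_div]
    rw [Finset.sum_congr rfl hterm]
    rw [Finset.sum_eq_single 0]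
    · simp
    · intro m _ hm0; simp [hm0]
    · intro h0; exfalso; apply h0; rw [mem_range]; omega
  set y : ℕ → E := fun k => P k x with hy
  -- (iii)
  have h3 : ∀ k, inner ℂ (y k) ((1 - B ^ n) x)
      = ((‖y k‖ ^ 2 : ℝ) : ℂ) - ω ^ k * inner ℂ (y k) (B (y k)) := by
    intro k
    have e1 : (1 - B ^ n) x = (1 - ω ^ k • B) (y k) := by
      rw [← h1 k]; rfl
    rw [e1]
    have e2 : (1 - ω ^ k • B) (y k) = y k - ω ^ k • B (y k) := by
      simp
    rw [e2, inner_sub_right, inner_smul_right, inner_self_eq_norm_sq_to_K]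
    norm_cast
  -- (iv)
  have h4 : ∑ k ∈ range n, y k = (n : ℂ) • x := by
    have : ∑ k ∈ range n, y k = (∑ k ∈ range n, P k) x := by
      rw [hy]; simp
    rw [this, h2]; simp
  have h5 : ∑ k ∈ range n, inner ℂ (y k) ((1 - B ^ n) x)
      = (n : ℂ) * (((‖x‖ ^ 2 : ℝ) : ℂ) - inner ℂ x ((B ^ n) x)) := by
    rw [← sum_inner, h4, inner_smul_left]
    have e1 : (1 - B ^ n) x = x - (B ^ n) x := by simp
    rw [e1, inner_sub_right, inner_self_eq_norm_sq_to_K]
    simp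
  have h6 : ∀ k, 0 ≤ (inner ℂ (y k) ((1 - B ^ n) x)).re := by
    intro k
    rw [h3 k]
    simp only [Complex.sub_re, Complex.ofReal_re]
    have hωk : ‖ω ^ k‖ = 1 := by
      rw [norm_pow, hprim.norm'_eq_one hn0, one_pow]
    have : (ω ^ k * inner ℂ (y k) (B (y k))).re ≤ ‖ω ^ k * inner ℂ (y k) (B (y k))‖ :=
      Complex.re_le_norm _
    rw [norm_mul, hωk, one_mul] at this
    have := hB (y k)
    linarith
  have h7 : 0 ≤ (∑ k ∈ range n, inner ℂ (y k) ((1 - B ^ n) x)).re := by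
    rw [Complex.re_sum]
    exact Finset.sum_nonneg (fun k _ => h6 k)
  rw [h5] at h7
  have h8 : ((n : ℂ) * (((‖x‖ ^ 2 : ℝ) : ℂ) - inner ℂ x ((B ^ n) x))).re
      = (n : ℝ) * (‖x‖ ^ 2 - (inner ℂ x ((B ^ n) x)).re) := by
    rw [show (n : ℂ) = ((n : ℝ) : ℂ) by push_cast; rfl, Complex.re_ofReal_mul, Complex.sub_re,
      Complex.ofReal_re]
  rw [h8] at h7
  have hnpos : (0:ℝ) < n := by exact_mod_cast (by omega : 0 < n)
  have := nonneg_of_mul_nonneg_right h7 hnpos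
  linarith

/-- the power inequality of Berger in homogeneous form -/
lemma berger (B : E →L[ℂ] E) (n : ℕ) (hn : 1 ≤ n)
    (hB : ∀ y : E, ‖inner ℂ y (B y)‖ ≤ ‖y‖ ^ 2) (x : E) :
    ‖inner ℂ x ((B ^ n) x)‖ ≤ ‖x‖ ^ 2 := by
  set z : ℂ := inner ℂ x ((B ^ n) x) with hz
  by_cases hz0 : z = 0
  · rw [hz0, norm_zero]; positivity
  have hn0 : n ≠ 0 := by omega
  have hnz : 0 < ‖z‖ := norm_pos_iff.mpr hz0
  -- a unit complex number whose n-th power rotates z to the positive real axis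
  set θ : ℝ := Complex.arg ((starRingEnd ℂ) z) with hθ
  set ζ : ℂ := Complex.exp (((θ / n : ℝ) : ℂ) * Complex.I) with hζ
  have hζ1 : ‖ζ‖ = 1 := by rw [hζ, Complex.norm_exp_ofReal_mul_I]
  have hζn : ζ ^ n * z = ((‖z‖ : ℝ) : ℂ) := by
    have e1 : ζ ^ n = Complex.exp ((θ : ℂ) * Complex.I) := by
      rw [hζ, ← Complex.exp_nat_mul]
      congr 1
      push_cast
      have : (n : ℂ) ≠ 0 := by exact_mod_cast hn0
      field_simp
    have e2 := Complex.norm_mul_exp_arg_mul_I ((starRingEnd ℂ) z)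
    rw [← hθ] at e2
    rw [e1]
    have e3 : ‖(starRingEnd ℂ) z‖ = ‖z‖ := by simp
    rw [e3] at e2
    have hnzc : ((‖z‖ : ℝ) : ℂ) ≠ 0 := by exact_mod_cast hnz.ne'
    have e4 : Complex.exp ((θ : ℂ) * Complex.I) = (starRingEnd ℂ) z / ((‖z‖ : ℝ) : ℂ) := by
      rw [eq_div_iff hnzc, mul_comm]; exact e2
    rw [e4, div_mul_eq_mul_div, Complex.conj_mul', div_eq_iff hnzc]
    ring
  have hB' : ∀ y : E, ‖inner ℂ y ((ζ • B) y)‖ ≤ ‖y‖ ^ 2 := by
    intro y
    have : inner ℂ y ((ζ • B) y) = ζ * inner ℂ y (B y) := by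
      simp
    rw [this, norm_mul, hζ1, one_mul]
    exact hB y
  have key := berger_re (ζ • B) n hn hB' x
  have e5 : inner ℂ x (((ζ • B) ^ n) x) = ζ ^ n * z := by
    rw [smul_pow]
    simp [hz]
  rw [e5, hζn, Complex.ofReal_re] at key
  exact key


/-- the power inequality with a radius: if the numerical range of B lies in the disc of radius r
about 0, the numerical range of B ^ n lies in the disc of radius r ^ n -/
lemma berger_scaled (B : E →L[ℂ] E) (n : ℕ) (r : ℝ) (hr : 0 ≤ r)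
    (hB : ∀ x : E, ‖x‖ = 1 → ‖inner ℂ x (B x)‖ ≤ r) :
    ∀ x : E, ‖x‖ = 1 → ‖inner ℂ x ((B ^ n) x)‖ ≤ r ^ n := by
  intro x hx
  by_cases hn : n = 0
  · subst hn
    simp [hx]
  have hn1 : 1 ≤ n := by omega
  have hom := numRadius_hom B r hB
  by_cases hr0 : r = 0
  · subst hr0
    have hz : ∀ y : E, inner ℂ ((B : E →ₗ[ℂ] E) y) y = 0 := by
      intro y
      have h1 := hom y
      rw [zero_mul] at h1
      have h2 : inner ℂ y (B y) = 0 := norm_le_zero_iff.mp h1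
      have h3 : inner ℂ (B y) y = (starRingEnd ℂ) (inner ℂ y (B y)) := (inner_conj_symm _ _).symm
      simp only [ContinuousLinearMap.coe_coe]
      rw [h3, h2, map_zero]
    have hB0 : (B : E →ₗ[ℂ] E) = 0 := (inner_map_self_eq_zero _).mp hz
    have hB0' : B = 0 := by
      ext y
      have := congrArg (fun f : E →ₗ[ℂ] E => f y) hB0
      simpa using this
    rw [hB0', zero_pow hn]
    simp
  · have hrpos : 0 < r := lt_of_le_of_ne hr (Ne.symm hr0)
    set B₁ : E →L[ℂ] E := ((r⁻¹ : ℝ) : ℂ) • B with hB₁def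
    have hB₁ : ∀ y : E, ‖inner ℂ y (B₁ y)‖ ≤ ‖y‖ ^ 2 := by
      intro y
      have : inner ℂ y (B₁ y) = ((r⁻¹ : ℝ) : ℂ) * inner ℂ y (B y) := by
        rw [hB₁def]; simp
      rw [this, norm_mul, Complex.norm_real, Real.norm_eq_abs, abs_of_pos (inv_pos.mpr hrpos)]
      have h1 := hom y
      calc r⁻¹ * ‖inner ℂ y (B y)‖ ≤ r⁻¹ * (r * ‖y‖ ^ 2) :=
            mul_le_mul_of_nonneg_left h1 (inv_pos.mpr hrpos).le
        _ = ‖y‖ ^ 2 := by field_simp
    have key := berger B₁ n hn1 hB₁ x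
    have e : inner ℂ x ((B₁ ^ n) x) = (((r⁻¹) ^ n : ℝ) : ℂ) * inner ℂ x ((B ^ n) x) := by
      rw [hB₁def, smul_pow]; simp
    have hpos : (0:ℝ) < (r⁻¹) ^ n := by positivity
    rw [e, norm_mul, Complex.norm_real, Real.norm_eq_abs, abs_of_pos hpos, hx] at key
    have h2 : ‖inner ℂ x ((B ^ n) x)‖ = r ^ n * ((r⁻¹) ^ n * ‖inner ℂ x ((B ^ n) x)‖) := by
      rw [← mul_assoc, ← mul_pow, mul_inv_cancel₀ hr0, one_pow, one_mul]
    rw [h2]
    have h3 : r ^ n * ((r⁻¹) ^ n * ‖inner ℂ x ((B ^ n) x)‖) ≤ r ^ n * 1 :=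
      mul_le_mul_of_nonneg_left (by simpa using key) (by positivity)
    linarith

/-- Crouzeix's inequality with constant 2 for polynomials with a single root: for every bounded
operator A on a nonzero complex Hilbert space (completeness is not needed), all complex numbers
a and c and every k, if the polynomial P(z) = c (z - a)^k satisfies |P(z)| ≤ M on the numerical
range of A, then the operator norm of P(A) = c (A - a)^k is at most 2 M. -/
theorem result {E : Type*} [NormedAddCommGroup E] [InnerProductSpace ℂ E] [Nontrivial E]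
    (A : E →L[ℂ] E) (a c : ℂ) (k : ℕ) (M : ℝ)
    (hM : ∀ x : E, ‖x‖ = 1 → ‖c * (inner ℂ x (A x) - a) ^ k‖ ≤ M) :
    ‖c • (A - a • (1 : E →L[ℂ] E)) ^ k‖ ≤ 2 * M := by
  set B : E →L[ℂ] E := A - a • (1 : E →L[ℂ] E) with hBdef
  have hinner : ∀ x : E, ‖x‖ = 1 → inner ℂ x (B x) = inner ℂ x (A x) - a := by
    intro x hx
    rw [hBdef]
    simp [hx]
  apply norm_le_two_numRadius
  intro x hx
  have hcx : inner ℂ x ((c • B ^ k) x) = c * inner ℂ x ((B ^ k) x) := by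
    simp
  rw [hcx, norm_mul]
  have hMx := hM x hx
  rw [← hinner x hx, norm_mul, norm_pow] at hMx
  by_cases hc : c = 0
  · subst hc
    simp only [norm_zero, zero_mul] at hMx ⊢
    exact hMx
  have hcpos : 0 < ‖c‖ := norm_pos_iff.mpr hc
  by_cases hk : k = 0
  · subst hk
    simp only [pow_zero, mul_one] at hMx
    simp [hx]
    exact hMx
  -- the radius
  have hR : ∀ y : E, ‖y‖ = 1 → ‖inner ℂ y (B y)‖ ^ k ≤ M / ‖c‖ := by
    intro y hy
    have h1 := hM y hy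
    rw [← hinner y hy, norm_mul, norm_pow] at h1
    rw [le_div_iff₀ hcpos]
    linarith
  have hR0 : 0 ≤ M / ‖c‖ := le_trans (by positivity) (hR x hx)
  set r : ℝ := (M / ‖c‖) ^ ((k : ℝ)⁻¹) with hr
  have hr0 : 0 ≤ r := Real.rpow_nonneg hR0 _
  have hrk : r ^ k = M / ‖c‖ := Real.rpow_inv_natCast_pow hR0 hk
  have hBr : ∀ y : E, ‖y‖ = 1 → ‖inner ℂ y (B y)‖ ≤ r := by
    intro y hy
    have h1 := hR y hy
    rw [← hrk] at h1
    exact (pow_le_pow_iff_left₀ (norm_nonneg _) hr0 hk).mp h1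
  have key := berger_scaled B k r hr0 hBr x hx
  rw [hrk] at key
  calc ‖c‖ * ‖inner ℂ x ((B ^ k) x)‖ ≤ ‖c‖ * (M / ‖c‖) :=
        mul_le_mul_of_nonneg_left key hcpos.le
    _ = M := by field_simp

end Vale.Agent.Results.P123.SingleRootPolynomials
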